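import Vale.Agent.P369L32.Main

/-!
# P369: the entropy photon-number inequality on the Fock space `ℓ²(ℕ₀ⁿ)`
-/

namespace Vale.Agent.Results.P369.AAFock

open scoped InnerProductSpace ENNReal
open Vale.Agent.P369L

section

variable {H K : Type} [NormedAddCommGroup H] [InnerProductSpace ℂ H] [CompleteSpace H]
  [NormedAddCommGroup K] [InnerProductSpace ℂ K] [CompleteSpace K] {m n : ℕ}

/-- `a_j` has the stated graph, it is densely defined and closed, `a_j |k⟩ = √k_j |k - e_j⟩`, and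
its adjoint has `a_j† |k⟩ = √(k_j + 1) |k + e_j⟩`. -/
def Ladder (e : (Fin m → ℕ) → H) : Prop :=
  ∀ j : Fin m, (ann e j).graph = annGraph e j ∧ Dense ((ann e j).domain : Set H) ∧
    (ann e j).IsClosed ∧ ∀ k : Fin m → ℕ,
      (e k, ((√(k j) : ℝ) : ℂ) • e (k - Pi.single j 1)) ∈ (ann e j).graph ∧
      (e k, ((√(k j + 1) : ℝ) : ℂ) • e (k + Pi.single j 1)) ∈ (ann e j).adjoint.graph

/-- Traces do not depend on the orthonormal basis, and the mean photon number is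
`Σ_k |k| ⟨k|T|k⟩`. -/
def Traces (e : (Fin m → ℕ) → H) : Prop :=
  ∀ T : H →L[ℂ] H, T.IsPositive →
    meanPhoton e T =
      ∑' k : Fin m → ℕ, (∑ j, (k j : ℝ≥0∞)) * ENNReal.ofReal (⟪e k, T (e k)⟫_ℂ).re ∧
    ∀ (ι : Type) (b : HilbertBasis ι ℂ H),
      tr e T = tr b T ∧ meanPhoton e T = ∑ j, ∑' i, sqForm (ann e j) (sqrtOp T (b i))

/-- Finite mean photon number implies finite entropy, `g(N(ρ)) = S(ρ)/n`, and the product thermal
state exists and has `N(τ_r ⊗ ⋯ ⊗ τ_r) = r`. -/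
def Entropies (e : (Fin n → ℕ) → H) : Prop :=
  (∀ ρ : H →L[ℂ] H, IsState e ρ → meanPhoton e ρ ≠ ⊤ →
    (negMulLogOp ρ).IsPositive ∧ entropy e ρ ≠ ⊤ ∧ 0 ≤ photonNumber e ρ ∧
      g (photonNumber e ρ) = (entropy e ρ).toReal / n) ∧
  ∀ r : ℝ, 0 ≤ r → (∃! τ : H →L[ℂ] H, IsThermal e r τ) ∧
    ∀ τ : H →L[ℂ] H, IsThermal e r τ →
      IsState e τ ∧ meanPhoton e τ = ENNReal.ofReal (n * r) ∧ photonNumber e τ = r

/-- The beam splitter, the product state and the output state exist and are unique, and the output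
satisfies the entropy photon-number inequality. -/
def Inequality (e : (Fin n → ℕ) → H) (f : (Fin (n + n) → ℕ) → K) : Prop :=
  ∀ η : ℝ, 0 ≤ η → η ≤ 1 →
    (∃! U : K ≃ₗᵢ[ℂ] K, IsBeamSplitter f η U) ∧
    ∀ U : K ≃ₗᵢ[ℂ] K, IsBeamSplitter f η U →
      ∀ ρA ρB : H →L[ℂ] H, IsState e ρA → IsState e ρB →
        meanPhoton e ρA ≠ ⊤ → meanPhoton e ρB ≠ ⊤ →
        (∃! σ, IsProduct e f ρA ρB σ) ∧ ∀ σ, IsProduct e f ρA ρB σ →
          (∃! ρC, IsPartialTrace e f (evolve U σ) ρC) ∧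
          ∀ ρC, IsPartialTrace e f (evolve U σ) ρC →
            IsState e ρC ∧ meanPhoton e ρC ≠ ⊤ ∧
              η * photonNumber e ρA + (1 - η) * photonNumber e ρB ≤ photonNumber e ρC

/-- The objects are the intended ones; the last line is `(ψ ⊗ φ)(k, l) = ψ(k) φ(l)`. -/
def Objects (e : (Fin n → ℕ) → H) (f : (Fin (n + n) → ℕ) → K) : Prop :=
  Ladder e ∧ Ladder f ∧ Traces e ∧ Entropies e ∧
    ∀ ψ φ k l, ⟪f (Fin.append k l), tmul e f ψ φ⟫_ℂ = ⟪e k, ψ⟫_ℂ * ⟪e l, φ⟫_ℂ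

end

/-- **The entropy photon-number inequality** (conjectured by Guha, Erkmen and Shapiro), on the
Fock spaces `ℓ²(ℕ₀ⁿ)` and `ℓ²(ℕ₀²ⁿ)` with their number states `e k = |k⟩` and `f k = |k⟩`. -/
theorem result (n : ℕ) (hn : 1 ≤ n)
    (e : (Fin n → ℕ) → lp (fun _ : Fin n → ℕ => ℂ) 2) (he : ∀ k, e k = lp.single 2 k 1)
    (f : (Fin (n + n) → ℕ) → lp (fun _ : Fin (n + n) → ℕ => ℂ) 2)
    (hf : ∀ k, f k = lp.single 2 k 1) :
    Inequality e f ∧ Objects e f ∧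
      StrictMonoOn g (Set.Ici 0) ∧ Set.BijOn g (Set.Ici 0) (Set.Ici 0) := by
  obtain rfl := funext he
  obtain rfl := funext hf
  have h1 := nb_single (Fin n → ℕ)
  have h2 := nb_single (Fin (n + n) → ℕ)
  refine ⟨fun η h0 hη => ⟨bs_existsUnique h2 h0 hη,
      fun U hU ρA ρB hA hB eA eB => main h1 h2 hn h0 hη hU hA hB eA eB⟩,
    ⟨fun j => ⟨ann_graph h1 j, dense_dom h1 j, ann_closed h1 j,
        fun k => ⟨ket_mem h1 j k, upKet_mem h1 j k⟩⟩,
      fun j => ⟨ann_graph h2 j, dense_dom h2 j, ann_closed h2 j,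
        fun k => ⟨ket_mem h2 j k, upKet_mem h2 j k⟩⟩,
      fun T h => ⟨mean_eq h1 h, fun ι b => ⟨tr_basis h1 h b, ?_⟩⟩,
      ⟨fun ρ h hE => ?_, fun r hr => thermal h1 hn hr⟩, isTens h1 h2⟩, g_bij⟩
  · rw [mean_eq h1 h, mean_basis h1 h]
  · exact ⟨(entropy_spec h1 h hE).1, (entropy_spec h1 h hE).2.1, photon_spec ρ⟩

end Vale.Agent.Results.P369.AAFock
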